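import Mathlib

/-!
Hadwiger's conjecture for Cayley graphs on finite abelian groups with independence number two.
-/

namespace Vale.Agent.P060.CayleyAlphaTwo

open Finset SimpleGraph

variable {A : Type} [AddCommGroup A] [Fintype A] (G : SimpleGraph A)

/-- A colouring with `t` colours together with a `K_t` minor. -/
def Good (G : SimpleGraph A) : Prop :=
  ∃ t : ℕ, G.Colorable t ∧ ∃ B : Fin t → Finset A,
    (∀ i, (B i).Nonempty ∧ (G.induce (B i : Set A)).Connected) ∧
    ∀ i j, i ≠ j → Disjoint (B i) (B j) ∧ ∃ a ∈ B i, ∃ b ∈ B j, G.Adj a b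

theorem good_of_pairs {ι : Type*} [Fintype ι] {a b : ι → A}
    (hpair : ∀ i, a i = b i ∨ G.Adj (a i) (b i))
    (hdis : ∀ i j, i ≠ j → a i ≠ a j ∧ a i ≠ b j ∧ b i ≠ b j)
    (hadj : ∀ i j, i ≠ j →
      G.Adj (a i) (a j) ∨ G.Adj (a i) (b j) ∨ G.Adj (b i) (a j) ∨ G.Adj (b i) (b j))
    (hcol : G.Colorable (Fintype.card ι)) : Good G := by
  classical
  let e := (Fintype.equivFin ι).symm
  refine ⟨Fintype.card ι, hcol, fun i => {a (e i), b (e i)},
    fun i => ⟨insert_nonempty _ _, ?_⟩, fun i j hij => ?_⟩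
  · rw [Finset.coe_pair]
    rcases hpair (e i) with h | h
    · rw [h, Set.pair_eq_singleton]
      have : Nonempty ({b (e i)} : Set A) := ⟨⟨_, rfl⟩⟩
      exact ⟨fun u v => (Subsingleton.elim u v) ▸ Reachable.refl _⟩
    · exact induce_pair_connected_of_adj h
  · have hne : e i ≠ e j := fun h => hij (e.injective h)
    obtain ⟨h1, h2, h3⟩ := hdis _ _ hne
    obtain ⟨_, h4, _⟩ := hdis _ _ hne.symm
    refine ⟨?_, ?_⟩
    · simp [h1.symm, h2.symm, h3.symm, h4]
    · rcases hadj _ _ hne with h | h | h | h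
      · exact ⟨_, mem_insert_self _ _, _, mem_insert_self _ _, h⟩
      · exact ⟨_, mem_insert_self _ _, _, mem_insert_of_mem (mem_singleton_self _), h⟩
      · exact ⟨_, mem_insert_of_mem (mem_singleton_self _), _, mem_insert_self _ _, h⟩
      · exact ⟨_, mem_insert_of_mem (mem_singleton_self _), _,
          mem_insert_of_mem (mem_singleton_self _), h⟩

/-- The non-zero non-edge differences. -/
def Non (d : A) : Prop := d ≠ 0 ∧ ¬ G.Adj 0 d

/-- Translation invariance. -/
def Inv : Prop := ∀ c u v : A, G.Adj (u + c) (v + c) ↔ G.Adj u v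

/-- No three vertices are independent. -/
def AlphaTwo : Prop :=
  ∀ u v w : A, u ≠ v → u ≠ w → v ≠ w → G.Adj u v ∨ G.Adj u w ∨ G.Adj v w

variable {G}

theorem adj_iff (hG : Inv G) (u v : A) : G.Adj u v ↔ G.Adj 0 (v - u) := by
  have h := hG (-u) u v
  rw [add_neg_cancel, ← sub_eq_add_neg] at h
  exact h.symm

theorem non_of_not_adj (hG : Inv G) {u v : A} (h : u ≠ v) (h' : ¬ G.Adj u v) : Non G (v - u) :=
  ⟨sub_ne_zero.2 h.symm, fun ha => h' ((adj_iff hG u v).2 ha)⟩

theorem adj_of_not_non (hG : Inv G) {u v : A} (h : u ≠ v) (h' : ¬ Non G (v - u)) : G.Adj u v := by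
  by_contra hn; exact h' (non_of_not_adj hG h hn)

theorem not_adj_of_non (hG : Inv G) {u v : A} (h : Non G (v - u)) : ¬ G.Adj u v :=
  fun ha => h.2 ((adj_iff hG u v).1 ha)

theorem non_neg (hG : Inv G) {d : A} (h : Non G d) : Non G (-d) := by
  refine ⟨neg_ne_zero.2 h.1, fun ha => h.2 ?_⟩
  rw [adj_iff hG 0 d, sub_zero]
  have := (adj_iff hG d 0).2 (by rwa [zero_sub])
  simpa using this.symm

theorem not_non_sub (hG : Inv G) (hα : AlphaTwo G) {d e : A} (hd : Non G d) (he : Non G e) :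
    ¬ Non G (d - e) := by
  intro h
  have hne : e ≠ d := fun hh => h.1 (sub_eq_zero.2 hh.symm)
  rcases hα 0 e d (Ne.symm he.1) (Ne.symm hd.1) hne with h1 | h1 | h1
  · exact he.2 h1
  · exact hd.2 h1
  · exact not_adj_of_non hG h h1

theorem exists_flip {x : A} (hx : Even (addOrderOf x)) :
    ∃ P : A → Prop, ∀ v, P (v + x) ↔ ¬ P v := by
  classical
  let π : A → A ⧸ AddSubgroup.zmultiples x := QuotientAddGroup.mk
  have hk : ∀ v, ∃ k : ℤ, k • x = v - (π v).out := by
    intro v
    have : v - (π v).out ∈ AddSubgroup.zmultiples x := by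
      rw [← QuotientAddGroup.eq_zero_iff, QuotientAddGroup.mk_sub]
      show π v - π (π v).out = 0
      simp [π]
    exact AddSubgroup.mem_zmultiples_iff.1 this
  choose k hk using hk
  refine ⟨fun v => Even (k v), fun v => ?_⟩
  have hπ : π (v + x) = π v := by
    simp only [π, QuotientAddGroup.mk_add]
    rw [(QuotientAddGroup.eq_zero_iff x).2 (AddSubgroup.mem_zmultiples x), add_zero]
  have h1 : (k (v + x) - (k v + 1)) • x = 0 := by
    rw [sub_zsmul, add_zsmul, one_zsmul, hk, hk, hπ]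
    abel
  have h2 : (addOrderOf x : ℤ) ∣ k (v + x) - (k v + 1) :=
    addOrderOf_dvd_iff_zsmul_eq_zero.2 h1
  have h3 : Even (k (v + x) - (k v + 1)) := by
    rw [even_iff_two_dvd]
    exact dvd_trans (by exact_mod_cast hx.two_dvd) h2
  show Even (k (v + x)) ↔ ¬ Even (k v)
  rw [Int.even_sub, Int.even_add_one] at h3
  exact h3

theorem two_mul_card {P : A → Prop} [DecidablePred P] {x : A} (hP : ∀ v, P (v + x) ↔ ¬ P v) :
    2 * Fintype.card {v // P v} = Fintype.card A := by
  have h : Fintype.card {v // P v} = Fintype.card {v // ¬ P v} := by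
    refine Fintype.card_congr (Equiv.subtypeEquiv (Equiv.addRight x) fun v => ?_)
    show P v ↔ ¬ P (v + x)
    rw [hP, not_not]
  have := Fintype.card_subtype_compl P
  have := Fintype.card_subtype_le P
  omega

theorem colorable_flip (hG : Inv G) {P : A → Prop} [DecidablePred P] {s : A} (hs : Non G s)
    (hP : ∀ v, P (v + s) ↔ ¬ P v) : G.Colorable (Fintype.card {v // P v}) := by
  have hP' : ∀ v, ¬ P v → P (v - s) := by
    intro v hv
    by_contra h
    exact hv (by simpa using (hP (v - s)).2 h)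
  let col : A → {v // P v} := fun v => if h : P v then ⟨v, h⟩ else ⟨v - s, hP' v h⟩
  exact (Coloring.mk col fun {u v} huv heq => by
    have h : (col u : A) = col v := congrArg _ heq
    by_cases hu : P u <;> by_cases hv : P v <;> simp [col, hu, hv] at h
    · exact huv.ne h
    · exact not_adj_of_non hG (u := u) (v := v) (by rw [h]; simpa using hs) huv
    · exact not_adj_of_non hG (u := v) (v := u) (by rw [← h]; simpa using hs) huv.symm
    · exact huv.ne h).colorable

theorem good_even (hG : Inv G) (hα : AlphaTwo G) {s : A} (hs : Non G s)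
    (hse : Even (addOrderOf s))
    (h2 : (∃ y, Non G (y + y)) ∨ ∃ c : A, ∀ a : A, ∃ y : A, a = y + y ∨ a = c + (y + y)) : Good G := by
  classical
  obtain ⟨P, hP⟩ := exists_flip hse
  have hcol := colorable_flip hG hs hP
  have hcardP := two_mul_card hP
  by_cases hy : ∃ y, Non G (y + y)
  · obtain ⟨y, hy⟩ := hy
    -- a half of the non-edge difference `y + y` of even order
    obtain ⟨x, hx, hxe⟩ : ∃ x, Non G (x + x) ∧ Even (addOrderOf x) := by
      by_cases he : Even (addOrderOf y)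
      · exact ⟨y, hy, he⟩
      · have h2A : 2 ∣ Fintype.card A := hse.two_dvd.trans addOrderOf_dvd_card
        haveI : Fact (Nat.Prime 2) := ⟨Nat.prime_two⟩
        obtain ⟨h, hh⟩ := exists_prime_addOrderOf_dvd_card 2 h2A
        have hh0 : h + h = 0 := by
          rw [← two_nsmul, ← hh]; exact addOrderOf_nsmul_eq_zero h
        refine ⟨y + h, by rwa [add_add_add_comm, hh0, add_zero], ?_⟩
        by_contra hodd
        rw [Nat.not_even_iff_odd] at he hodd
        have hz : (addOrderOf y * addOrderOf (y + h)) • h = 0 := by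
          have e1 : (addOrderOf y * addOrderOf (y + h)) • y = 0 := by
            rw [mul_comm, mul_nsmul', addOrderOf_nsmul_eq_zero, nsmul_zero]
          have e2 : (addOrderOf y * addOrderOf (y + h)) • (y + h) = 0 := by
            rw [mul_nsmul', addOrderOf_nsmul_eq_zero, nsmul_zero]
          rwa [nsmul_add, e1, zero_add] at e2
        have := addOrderOf_dvd_iff_nsmul_eq_zero.2 hz
        rw [hh] at this
        exact (Nat.not_even_iff_odd.2 (he.mul hodd)) (even_iff_two_dvd.2 this)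
    obtain ⟨Q, hQ⟩ := exists_flip hxe
    have hx0 : x ≠ 0 := fun h => hx.1 (by rw [h, add_zero])
    have hxn : ¬ Non G x := fun h => not_non_sub hG hα hx h (by rwa [add_sub_cancel_right])
    refine good_of_pairs G (ι := {v // Q v}) (a := fun i => i.1) (b := fun i => i.1 + x)
      (fun i => Or.inr (adj_of_not_non hG (by simpa using hx0) (by simpa using hxn))) ?_ ?_ ?_
    · intro i j hij
      have hne : i.1 ≠ j.1 := fun h => hij (Subtype.ext h)
      refine ⟨hne, fun h => (hQ j.1).1 (h ▸ i.2 : Q (j.1 + x)) j.2,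
        fun h => hne (add_right_cancel h)⟩
    · intro i j hij
      have hne : i.1 ≠ j.1 := fun h => hij (Subtype.ext h)
      by_contra hno
      simp only [not_or] at hno
      obtain ⟨_, h2, h3, _⟩ := hno
      have hab : i.1 ≠ j.1 + x := fun h => (hQ j.1).1 (h ▸ i.2 : Q (j.1 + x)) j.2
      have hba : i.1 + x ≠ j.1 := fun h => (hQ i.1).1 (h ▸ j.2 : Q (i.1 + x)) i.2
      refine not_non_sub hG hα (non_of_not_adj hG hab h2) (non_of_not_adj hG hba h3) ?_
      convert hx using 1
      abel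
    · have := two_mul_card hQ
      exact hcol.mono (by omega)
  · obtain ⟨c, hc⟩ := h2.resolve_left hy
    have hne : ∀ d, Non G d → ∃ y, d = c + (y + y) := by
      intro d hd
      obtain ⟨y, h | h⟩ := hc d
      · exact absurd ⟨y, h ▸ hd⟩ hy
      · exact ⟨y, h⟩
    have hcc : ¬ ∃ y, c = y + y := by
      rintro ⟨z, rfl⟩
      obtain ⟨y, h⟩ := hne s hs
      exact hy ⟨z + y, by rw [add_add_add_comm, ← h]; exact hs⟩
    have hQ : ∀ v, (∃ y, v + c = y + y) ↔ ¬ ∃ y, v = y + y := by
      intro v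
      constructor
      · rintro ⟨y, h⟩ ⟨z, rfl⟩
        exact hcc ⟨y - z, by linear_combination (norm := abel) h⟩
      · intro h
        obtain ⟨y, h' | h'⟩ := hc v
        · exact absurd ⟨y, h'⟩ h
        · exact ⟨c + y, by rw [h']; abel⟩
    have hadj : ∀ i j : {v : A // ∃ y, v = y + y}, i ≠ j → G.Adj i.1 j.1 := by
      rintro ⟨_, y, rfl⟩ ⟨_, z, rfl⟩ hij
      refine adj_of_not_non hG (fun h => hij (Subtype.ext h)) fun hd => hy ⟨z - y, ?_⟩
      show Non G (z - y + (z - y))
      rw [show z - y + (z - y) = z + z - (y + y) by abel]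
      exact hd
    refine good_of_pairs G (a := fun i : {v : A // ∃ y, v = y + y} => i.1) (b := fun i => i.1)
      (fun i => Or.inl rfl) (fun i j hij => ?_) (fun i j hij => Or.inl (hadj i j hij)) ?_
    · have hne' : i.1 ≠ j.1 := fun h => hij (Subtype.ext h)
      exact ⟨hne', hne', hne'⟩
    · have := two_mul_card (P := fun v : A => ∃ y, v = y + y) (x := c) hQ
      exact hcol.mono (by omega)

theorem good_odd (hG : Inv G) (hα : AlphaTwo G) {x : A}
    (hgen : ∀ a, a ∈ AddSubgroup.zmultiples x) (hodd : Odd (Fintype.card A))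
    (h2 : Non G (x + x)) (h3 : ¬ Non G (x + x + x)) : Good G := by
  classical
  obtain ⟨l, hl⟩ := hodd
  set m := Fintype.card A with hm
  have hord : addOrderOf x = m := by
    rw [addOrderOf_eq_card_of_forall_mem_zmultiples hgen, Nat.card_eq_fintype_card]
  let φ : ℤ → A := fun i => i • x
  have hφ0 : ∀ i : ℤ, φ i = 0 ↔ (m : ℤ) ∣ i := fun i => by
    rw [← hord]; exact addOrderOf_dvd_iff_zsmul_eq_zero.symm
  have hφs : ∀ i j, φ i - φ j = φ (i - j) := fun i j => by
    simp only [φ]; rw [sub_zsmul, sub_eq_add_neg]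
  have hinj : ∀ i j : ℤ, 0 ≤ i → i < m → 0 ≤ j → j < m → φ i = φ j → i = j := by
    intro i j hi hi' hj hj' h
    have h' : φ (i - j) = 0 := by rw [← hφs, h, sub_self]
    obtain ⟨q, hq⟩ := (hφ0 _).1 h'
    rcases lt_trichotomy q 0 with hq0 | hq0 | hq0
    · nlinarith
    · rw [hq0] at hq; omega
    · nlinarith
  let T : ℤ → Prop := fun i => Non G (φ i)
  have hT0 : ¬ T 0 := fun h => h.1 (by simp [φ])
  have hTm : ∀ i, T (i + m) → T i := by
    intro i h
    have : φ (i + m) = φ i := by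
      have : φ (i + m) - φ i = 0 := by rw [hφs]; exact (hφ0 _).2 ⟨1, by ring⟩
      exact sub_eq_zero.1 this
    simpa [T, this] using h
  have hsub : ∀ p q r : ℤ, T p → T q → r = p - q → ¬ T r := by
    rintro p q r hp hq rfl
    simpa [T, ← hφs] using not_non_sub hG hα hp hq
  have hT2 : T 2 := by
    show Non G ((2 : ℤ) • x)
    rwa [two_zsmul]
  have hT3 : ¬ T 3 := by
    show ¬ Non G ((3 : ℤ) • x)
    rwa [show (3 : ℤ) = 2 + 1 from rfl, add_zsmul, two_zsmul, one_zsmul]
  have hT1 : ¬ T 1 := fun h => hsub 2 1 1 hT2 h (by ring) h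
  have hgap : ∀ p q : ℤ, T p → q = p + 2 → ¬ T q := fun p q hp hq h =>
    hsub q p 2 h hp (by omega) hT2
  have hadj : ∀ i j : ℤ, φ i ≠ φ j → ¬ T (j - i) → G.Adj (φ i) (φ j) := fun i j h h' =>
    adj_of_not_non hG h (by rwa [hφs])
  let Off : ℤ → Prop := fun k => T (2 * k - 1) ∧ T (2 * k)
  have hOff1 : ¬ Off 1 := fun h => hT1 (by simpa using h.1)
  have hOffl : ¬ Off ((l : ℤ) + 1) := fun h =>
    hT0 (hTm 0 (by have := h.1; rwa [show 2 * ((l : ℤ) + 1) - 1 = 0 + (m : ℤ) by omega] at this))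
  have hOffs : ∀ k j, Off k → j = k + 1 → ¬ Off j := fun k j hk hj h =>
    hgap (2 * k - 1) (2 * j - 1) hk.1 (by omega) h.1
  let af : ℤ → ℤ := fun k => if Off k then 2 * k - 2 else 2 * k - 1
  let bf : ℤ → ℤ := fun k => if Off k then 2 * k - 1 else if Off (k + 1) then 2 * k + 2 else 2 * k
  let a : Fin (l + 1) → ℤ := fun i => if i.1 = 0 then 0 else af i.1
  let b : Fin (l + 1) → ℤ := fun i => if i.1 = 0 then 0 else bf i.1
  have hrange : ∀ k : ℤ, 1 ≤ k → k ≤ l →
      1 ≤ af k ∧ af k < bf k ∧ bf k < m := by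
    intro k hk hk'
    have : Off (k + 1) → k + 1 ≠ (l : ℤ) + 1 := fun h e => hOffl (e ▸ h)
    have : Off k → k ≠ 1 := fun h e => hOff1 (e ▸ h)
    by_cases h0 : Off k <;> by_cases h1 : Off (k + 1) <;> simp [af, bf, h0, h1] at * <;> omega
  have hA : ∀ i : Fin (l + 1), 0 ≤ a i ∧ a i < m ∧ 0 ≤ b i ∧ b i < m := by
    intro i
    by_cases hi : i.1 = 0
    · simp only [a, b, if_pos hi]; omega
    · have := hrange i.1 (by omega) (by have := i.2; omega)
      simp only [a, b, if_neg hi]; omega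
  have hdis : ∀ i j : Fin (l + 1), i ≠ j → a i ≠ a j ∧ a i ≠ b j ∧ b i ≠ b j := by
    intro i j hij
    have hij' : i.1 ≠ j.1 := fun h => hij (Fin.ext h)
    by_cases hi : i.1 = 0
    · have := hrange j.1 (by omega) (by have := j.2; omega)
      simp only [a, b, if_pos hi, if_neg (show j.1 ≠ 0 by omega)]; omega
    by_cases hj : j.1 = 0
    · have := hrange i.1 (by omega) (by have := i.2; omega)
      simp only [a, b, if_pos hj, if_neg hi]; omega
    simp only [a, b, if_neg hi, if_neg hj, af, bf]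
    have e1 : ∀ p q : ℤ, Off p → ¬ Off q → p ≠ q := fun p q hp hq e => hq (e ▸ hp)
    have c1 := e1 (i.1 : ℤ) j.1
    have c2 := e1 (j.1 : ℤ) i.1
    have c3 := e1 ((i.1 : ℤ) + 1) j.1
    have c4 := e1 ((j.1 : ℤ) + 1) i.1
    have c5 := e1 (i.1 : ℤ) (j.1 + 1)
    have c6 := e1 (j.1 : ℤ) (i.1 + 1)
    have d1 := hOffs (i.1 : ℤ) (i.1 + 1)
    have d2 := hOffs (j.1 : ℤ) (j.1 + 1)
    have d3 : Off ((j.1 : ℤ) + 1) → Off (i.1 : ℤ) → (i.1 : ℤ) ≠ j.1 + 1 + 1 :=
      fun p q e => hOffs _ _ p e q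
    have d4 : Off ((i.1 : ℤ) + 1) → Off (j.1 : ℤ) → (j.1 : ℤ) ≠ i.1 + 1 + 1 :=
      fun p q e => hOffs _ _ p e q
    by_cases h0 : Off (i.1 : ℤ) <;> by_cases h1 : Off ((i.1 : ℤ) + 1) <;>
      by_cases k0 : Off (j.1 : ℤ) <;> by_cases k1 : Off ((j.1 : ℤ) + 1) <;>
      simp [h0, h1, k0, k1] at c1 c2 c3 c4 c5 c6 d1 d2 d3 d4 ⊢ <;> omega
  -- the pairs have difference one or three; the latter start just before an offending index
  have htype : ∀ k : ℤ, bf k = af k + 1 ∨ (bf k = af k + 3 ∧ T (af k + 2)) := by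
    intro k
    by_cases h0 : Off k
    · left; simp [af, bf, h0]; ring
    by_cases h1 : Off (k + 1)
    · right
      simp only [af, bf, if_neg h0, if_pos h1]
      exact ⟨by ring, by convert h1.1 using 1; ring⟩
    · left; simp [af, bf, h0, h1]
  have hzero : ∀ k : ℤ, ¬ (T (af k) ∧ T (bf k)) := by
    intro k ⟨p, q⟩
    by_cases h0 : Off k
    · simp only [af, if_pos h0] at p
      exact hgap _ (2 * k) p (by ring) h0.2
    by_cases h1 : Off (k + 1)
    · simp only [af, if_neg h0] at p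
      exact hgap _ (2 * (k + 1) - 1) p (by ring) h1.1
    · simp only [af, bf, if_neg h0, if_neg h1] at p q
      exact h0 ⟨p, q⟩
  have hconf : ∀ k j : ℤ, ¬ (T (af j - af k) ∧ T (bf j - af k) ∧ T (af j - bf k) ∧
      T (bf j - bf k)) := by
    intro k j ⟨p, q, r, s⟩
    rcases htype k with hk | ⟨hk, hk'⟩ <;> rcases htype j with hj | ⟨hj, hj'⟩
    · exact hgap _ (bf j - af k) r (by omega) q
    · exact hgap _ (bf j - bf k) p (by omega) s
    · exact hgap _ (af j - af k) s (by omega) p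
    · exact hsub _ _ (af j - af k) hj' hk' (by omega) p
  have hne : ∀ i j : ℤ, i ≠ j → 0 ≤ i → i < m → 0 ≤ j → j < m → φ i ≠ φ j :=
    fun i j h hi hi' hj hj' e => h (hinj i j hi hi' hj hj' e)
  refine good_of_pairs G (ι := Fin (l + 1)) (a := fun i => φ (a i)) (b := fun i => φ (b i))
    (fun i => ?_) (fun i j hij => ?_) (fun i j hij => ?_) ?_
  · by_cases hi : i.1 = 0
    · left; simp only [a, b, if_pos hi]
    · right
      have hr := hrange i.1 (by omega) (by have := i.2; omega)
      simp only [a, b, if_neg hi]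
      refine hadj _ _ (hne _ _ (by omega) (by omega) (by omega) (by omega) (by omega)) ?_
      rcases htype i.1 with h | ⟨h, _⟩
      · rw [h, add_sub_cancel_left]; exact hT1
      · rw [h, add_sub_cancel_left]; exact hT3
  · obtain ⟨p, q, r⟩ := hdis i j hij
    obtain ⟨i1, i2, i3, i4⟩ := hA i
    obtain ⟨j1, j2, j3, j4⟩ := hA j
    exact ⟨hne _ _ p i1 i2 j1 j2, hne _ _ q i1 i2 j3 j4, hne _ _ r i3 i4 j3 j4⟩
  · obtain ⟨p, q, r⟩ := hdis i j hij
    obtain ⟨_, q', _⟩ := hdis j i (Ne.symm hij)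
    obtain ⟨i1, i2, i3, i4⟩ := hA i
    obtain ⟨j1, j2, j3, j4⟩ := hA j
    by_contra hno
    simp only [not_or] at hno
    obtain ⟨n1, n2, n3, n4⟩ := hno
    have t1 := non_of_not_adj hG (hne _ _ p i1 i2 j1 j2) n1
    have t2 := non_of_not_adj hG (hne _ _ q i1 i2 j3 j4) n2
    have t3 := non_of_not_adj hG (hne _ _ (Ne.symm q') i3 i4 j1 j2) n3
    have t4 := non_of_not_adj hG (hne _ _ r i3 i4 j3 j4) n4
    rw [hφs] at t1 t2 t3 t4
    have hij' : i.1 ≠ j.1 := fun h => hij (Fin.ext h)
    by_cases hi : i.1 = 0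
    · simp only [a, b, if_pos hi, if_neg (show j.1 ≠ 0 by omega), sub_zero] at t1 t2
      exact hzero _ ⟨t1, t2⟩
    by_cases hj : j.1 = 0
    · simp only [a, b, if_pos hj, if_neg hi, zero_sub] at t1 t3
      have hneg : ∀ u : ℤ, T (-u) → T u := by
        intro u hu
        have := non_neg hG hu
        simpa [T, φ] using this
      exact hzero _ ⟨hneg _ t1, hneg _ t3⟩
    simp only [a, b, if_neg hi, if_neg hj] at t1 t2 t3 t4
    exact hconf i.1 j.1 ⟨t1, t2, t3, t4⟩
  · -- colour along the cycle of the non-edge difference `x + x`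
    rw [Fintype.card_fin]
    have hidx : ∀ v : A, ∃ i : ℕ, i < m ∧ φ (2 * i) = v := by
      intro v
      obtain ⟨k, hk⟩ := AddSubgroup.mem_zmultiples_iff.1 (hgen v)
      have hmpos : (0 : ℤ) < m := by omega
      refine ⟨((k * (l + 1)) % m).toNat, ?_, ?_⟩
      · have := Int.emod_lt_of_pos (k * (l + 1)) hmpos
        omega
      · have h0 := Int.emod_nonneg (k * (l + 1)) hmpos.ne'
        rw [Int.toNat_of_nonneg h0, ← hk]
        refine sub_eq_zero.1 ((hφs _ k).trans ((hφ0 _).2 ?_))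
        refine ⟨k - 2 * ((k * (l + 1)) / m), ?_⟩
        have := Int.mul_ediv_add_emod (k * (l + 1)) m
        have hml : (m : ℤ) = 2 * l + 1 := by omega
        linear_combination 2 * this - k * hml
    choose idx hidx using hidx
    refine ⟨Coloring.mk (fun v => (⟨idx v / 2, by have := (hidx v).1; omega⟩ : Fin (l + 1)))
      fun {u v} huv heq => ?_⟩
    have h : idx u / 2 = idx v / 2 := congrArg Fin.val heq
    have hne' : idx u ≠ idx v := fun e => huv.ne (by rw [← (hidx u).2, ← (hidx v).2, e])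
    rcases Nat.lt_or_gt_of_ne hne' with hlt | hlt
    · refine not_adj_of_non hG (u := u) (v := v) ?_ huv
      rw [← (hidx u).2, ← (hidx v).2, hφs]
      show T _
      rwa [show 2 * (idx v : ℤ) - 2 * idx u = 2 by omega]
    · refine not_adj_of_non hG (u := v) (v := u) ?_ huv.symm
      rw [← (hidx u).2, ← (hidx v).2, hφs]
      show T _
      rwa [show 2 * (idx u : ℤ) - 2 * idx v = 2 by omega]

end Vale.Agent.P060.CayleyAlphaTwo
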