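import Mathlib

/-!
Hadwiger's bound for graphs whose complement has small maximum degree and many edges.
-/

namespace Vale.Agent.P060

open Finset SimpleGraph

open scoped Classical

variable {V : Type*} [Fintype V]

/-- The moved points of a map. -/
noncomputable def moved (p : V → V) : Finset V :=
  univ.filter fun x => p x ≠ x

/-- A system of representatives for the orbits of an involution. -/
noncomputable def reps (p : V → V) : Finset V :=
  univ.filter fun x => Fintype.equivFin V x ≤ Fintype.equivFin V (p x)

theorem two_mul_card_reps (p : V → V) (hp : Function.Involutive p) :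
    2 * (reps p).card + (moved p).card = 2 * Fintype.card V := by
  set A := univ.filter fun x => Fintype.equivFin V x < Fintype.equivFin V (p x)
  set B := univ.filter fun x => Fintype.equivFin V (p x) < Fintype.equivFin V x
  have hAB : A.card = B.card := by
    refine Finset.card_bij (fun x _ => p x) (fun x hx => ?_) (fun x _ y _ h => hp.injective h)
      (fun y hy => ⟨p y, ?_, hp y⟩)
    · simpa [A, B, hp x] using hx
    · simpa [A, B, hp y] using hy
  have hm : moved p = A ∪ B := by
    ext x
    simp only [moved, A, B, mem_union, mem_filter, mem_univ, true_and]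
    rw [← lt_or_lt_iff_ne.trans (Fintype.equivFin V).injective.ne_iff]
    exact or_comm
  have hd : Disjoint A B := by
    rw [Finset.disjoint_left]
    intro x hx hx'
    exact lt_asymm (mem_filter.1 hx).2 (mem_filter.1 hx').2
  have hr : reps p = Bᶜ := by
    ext x
    simp [reps, B]
  rw [hm, card_union_of_disjoint hd, hr, card_compl, hAB]
  have := B.card_le_univ
  omega

/-- Two vertices at distance at least three in `H`. -/
def Far (H : SimpleGraph V) (x y : V) : Prop :=
  x ≠ y ∧ ¬ H.Adj x y ∧ ∀ z, ¬ (H.Adj x z ∧ H.Adj y z)

theorem Far.symm {H : SimpleGraph V} {x y : V} (h : Far H x y) : Far H y x :=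
  ⟨h.1.symm, fun h' => h.2.1 h'.symm, fun z hz => h.2.2 z ⟨hz.2, hz.1⟩⟩

theorem card_near (H : SimpleGraph V) {D : ℕ}
    (hD : ∀ x, (univ.filter fun y => H.Adj x y).card ≤ D) (x : V) :
    (univ.filter fun y => y ≠ x ∧ ¬ Far H x y).card ≤ D * D := by
  set N := univ.filter fun y => H.Adj x y
  have hsub : (univ.filter fun y => y ≠ x ∧ ¬ Far H x y) ⊆
      N ∪ N.biUnion fun z => (univ.filter fun y => H.Adj z y).erase x := by
    intro y hy
    simp only [mem_filter, mem_univ, true_and] at hy
    by_cases hxy : H.Adj x y
    · exact mem_union_left _ (by simp [N, hxy])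
    · refine mem_union_right _ ?_
      have : ∃ z, H.Adj x z ∧ H.Adj y z := by
        by_contra hno
        exact hy.2 ⟨hy.1.symm, hxy, fun z hz => hno ⟨z, hz⟩⟩
      obtain ⟨z, hxz, hyz⟩ := this
      simp only [mem_biUnion, mem_erase, mem_filter, mem_univ, true_and, N]
      exact ⟨z, hxz, hy.1, hyz.symm⟩
  refine (card_le_card hsub).trans ((card_union_le _ _).trans ?_)
  have hN : N.card ≤ D := hD x
  have hb : (N.biUnion fun z => (univ.filter fun y => H.Adj z y).erase x).card ≤ N.card * (D - 1) := by
    refine card_biUnion_le.trans ((Finset.sum_le_card_nsmul _ _ _ fun z hz => ?_).trans_eq (smul_eq_mul _ _))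
    have hmem : x ∈ univ.filter fun y => H.Adj z y := by
      simp only [N, mem_filter, mem_univ, true_and] at hz ⊢
      exact hz.symm
    rw [card_erase_of_mem hmem]
    exact Nat.sub_le_sub_right (hD z) 1
  calc N.card + _ ≤ N.card + N.card * (D - 1) := Nat.add_le_add_left hb _
    _ ≤ D + D * (D - 1) := Nat.add_le_add hN (Nat.mul_le_mul_right _ hN)
    _ ≤ D * D := by
        rcases D with _ | k
        · simp
        · simp [Nat.mul_succ]; omega

theorem exists_colouring_and_minor (G : SimpleGraph V) {D : ℕ}
    (hD : ∀ x, (univ.filter fun y => Gᶜ.Adj x y).card ≤ D)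
    (hE : 2 * D ^ 3 < Gᶜ.edgeFinset.card) :
    ∃ t : ℕ, G.Colorable t ∧ ∃ B : Fin t → Finset V,
      (∀ i, (B i).Nonempty ∧ (G.induce (B i : Set V)).Connected) ∧
      ∀ i j, i ≠ j → Disjoint (B i) (B j) ∧ ∃ a ∈ B i, ∃ b ∈ B j, G.Adj a b := by
  let IsMatching : (V → V) → Prop := fun p =>
    Function.Involutive p ∧ ∀ x, p x ≠ x → Gᶜ.Adj x (p x)
  obtain ⟨p, hp, hpmax⟩ := Finset.exists_max_image
    (univ.filter IsMatching) (fun p => (moved p).card)
    ⟨id, mem_filter.2 ⟨mem_univ _, fun x => rfl, fun x h => absurd rfl h⟩⟩
  simp only [mem_filter, mem_univ, true_and] at hp hpmax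
  set R := moved p with hR
  have hindep : ∀ x y, x ∉ R → y ∉ R → ¬ Gᶜ.Adj x y := by
    intro x y hx hy hxy
    simp only [hR, moved, mem_filter, mem_univ, true_and, not_not] at hx hy
    let p' : V → V := fun z => if z = x then y else if z = y then x else p z
    have hp' : IsMatching p' := by
      have hne := hxy.ne
      refine ⟨fun z => ?_, fun z hz => ?_⟩
      · by_cases h1 : z = x
        · simp [p', h1, hne.symm]
        · by_cases h2 : z = y
          · simp [p', h2, hne.symm]
          · have h3 : p z ≠ x := fun h => h1 (by rw [← hp.1 z, h, hx])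
            have h4 : p z ≠ y := fun h => h2 (by rw [← hp.1 z, h, hy])
            simp [p', h1, h2, h3, h4, hp.1 z]
      · by_cases h1 : z = x
        · simpa [p', h1] using hxy
        · by_cases h2 : z = y
          · simpa [p', h2, hne.symm] using hxy.symm
          · simp only [p', h1, h2, if_false] at hz ⊢
            exact hp.2 z hz
    have hss : R ⊂ moved p' := by
      refine (Finset.ssubset_iff_of_subset ?_).2 ⟨x, ?_, ?_⟩
      · intro z hz
        simp only [hR, moved, mem_filter, mem_univ, true_and] at hz ⊢
        have h1 : z ≠ x := fun h => hz (h ▸ hx)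
        have h2 : z ≠ y := fun h => hz (h ▸ hy)
        simpa [p', h1, h2] using hz
      · simp [moved, p', hxy.ne.symm]
      · simp [hR, moved, hx]
    exact absurd (hpmax p' hp') (not_le.2 (card_lt_card hss))
  have hbig : 2 * (D * D) < R.card := by
    have h1 : Gᶜ.edgeFinset ⊆ R.biUnion fun x => (univ.filter fun y => Gᶜ.Adj x y).image fun y => s(x, y) := by
      intro e he
      induction e using Sym2.ind with
      | h x y =>
        rw [mem_edgeFinset, mem_edgeSet] at he
        simp only [mem_biUnion, mem_image, mem_filter, mem_univ, true_and]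
        by_cases hx : x ∈ R
        · exact ⟨x, hx, y, he, rfl⟩
        · have hy : y ∈ R := by_contra fun hy => hindep x y hx hy he
          exact ⟨y, hy, x, he.symm, Sym2.eq_swap⟩
    have h2 := (card_le_card h1).trans (card_biUnion_le.trans ((Finset.sum_le_card_nsmul _ _ _
      fun x _ => card_image_le.trans (hD x)).trans_eq (smul_eq_mul _ _)))
    by_contra h
    push Not at h
    have h3 := Nat.mul_le_mul_right D h
    have : 2 * D ^ 3 = 2 * (D * D) * D := by ring
    omega
  let IsPairing : (V → V) → Prop := fun q =>
    Function.Involutive q ∧ ∀ x, q x ≠ x → x ∈ R ∧ Far Gᶜ x (q x)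
  obtain ⟨q, hq, hqmax⟩ := Finset.exists_max_image
    (univ.filter IsPairing) (fun q => (moved q).card)
    ⟨id, mem_filter.2 ⟨mem_univ _, fun x => rfl, fun x h => absurd rfl h⟩⟩
  simp only [mem_filter, mem_univ, true_and] at hq hqmax
  have hqR : moved q ⊆ R := fun x hx => (hq.2 x (mem_filter.1 hx).2).1
  have hrp := two_mul_card_reps p hp.1
  rw [← hR] at hrp
  have hrq := two_mul_card_reps q hq.1
  have hqall : moved q = R := by
    by_contra hne
    have hlt : (moved q).card < R.card := card_lt_card (Finset.ssubset_iff_subset_ne.2 ⟨hqR, hne⟩)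
    have h2 : 1 < (R \ moved q).card := by
      rw [card_sdiff_of_subset hqR]
      omega
    obtain ⟨x, hx, y, hy, hxy, hchoice⟩ : ∃ x ∈ R \ moved q, ∃ y ∈ R \ moved q, x ≠ y ∧
        (Far Gᶜ x y ∨ ∀ u ∈ R \ moved q, ∀ v ∈ R \ moved q, ¬ Far Gᶜ u v) := by
      by_cases hex : ∃ u ∈ R \ moved q, ∃ v ∈ R \ moved q, Far Gᶜ u v
      · obtain ⟨u, hu, v, hv, hf⟩ := hex
        exact ⟨u, hu, v, hv, hf.1, Or.inl hf⟩
      · push Not at hex
        obtain ⟨u, hu, v, hv, huv⟩ := one_lt_card.1 h2
        exact ⟨u, hu, v, hv, huv, Or.inr hex⟩
    rw [mem_sdiff] at hx hy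
    have hxf : q x = x := by simpa [moved] using hx.2
    have hyf : q y = y := by simpa [moved] using hy.2
    -- a partner for `x` whose partner suits `y`, or `x` and `y` themselves
    by_cases hF : Far Gᶜ x y
    · let q' : V → V := fun z => if z = x then y else if z = y then x else q z
      have hq' : IsPairing q' := by
        refine ⟨fun z => ?_, fun z hz => ?_⟩
        · by_cases h1 : z = x
          · simp [q', h1, hxy.symm]
          · by_cases h2 : z = y
            · simp [q', h2, hxy.symm]
            · have h3 : q z ≠ x := fun h => h1 (by rw [← hq.1 z, h, hxf])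
              have h4 : q z ≠ y := fun h => h2 (by rw [← hq.1 z, h, hyf])
              simp [q', h1, h2, h3, h4, hq.1 z]
        · by_cases h1 : z = x
          · simpa [q', h1] using ⟨hx.1, hF⟩
          · by_cases h2 : z = y
            · simpa [q', h2, hxy.symm] using ⟨hy.1, hF.symm⟩
            · simp only [q', h1, h2, if_false] at hz ⊢
              exact hq.2 z hz
      have hss : moved q ⊂ moved q' := by
        refine (Finset.ssubset_iff_of_subset ?_).2 ⟨x, ?_, hx.2⟩
        · intro z hz
          simp only [moved, mem_filter, mem_univ, true_and] at hz ⊢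
          have h1 : z ≠ x := fun h => hz (h ▸ hxf)
          have h2 : z ≠ y := fun h => hz (h ▸ hyf)
          simpa [q', h1, h2] using hz
        · simp [moved, q', hxy.symm]
      exact absurd (hqmax q' hq') (not_le.2 (card_lt_card hss))
    · have hall := hchoice.resolve_left hF
      have hcount : ∀ u ∈ R \ moved q,
          R.card ≤ ((moved q).filter fun a => Far Gᶜ u a).card + D * D + 1 := by
        intro u hu
        have hs : (R \ moved q).erase u ∪ ((moved q).filter fun a => ¬ Far Gᶜ u a) ⊆
            univ.filter fun a => a ≠ u ∧ ¬ Far Gᶜ u a := by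
          intro a ha
          simp only [mem_union, mem_erase, mem_filter, mem_univ, true_and] at ha ⊢
          rcases ha with ⟨h1, h2⟩ | ⟨h1, h2⟩
          · exact ⟨h1, hall u hu a h2⟩
          · exact ⟨fun h => (mem_sdiff.1 hu).2 (h ▸ h1), h2⟩
        have h3 := (card_le_card hs).trans (card_near (D := D) Gᶜ (by convert hD) u)
        rw [card_union_of_disjoint (Finset.disjoint_left.2 fun a ha ha' =>
          (mem_sdiff.1 (mem_erase.1 ha).2).2 (mem_filter.1 ha').1), card_erase_of_mem hu,
          card_sdiff_of_subset hqR] at h3
        have h4 := Finset.card_filter_add_card_filter_not (s := moved q) (fun a => Far Gᶜ u a)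
        omega
      have cx := hcount x (mem_sdiff.2 hx)
      have cy := hcount y (mem_sdiff.2 hy)
      have hQ : ((moved q).filter fun a => Far Gᶜ y (q a)).card
          = ((moved q).filter fun a => Far Gᶜ y a).card := by
        refine Finset.card_bij (fun a _ => q a) (fun a ha => ?_) (fun a _ b _ h => hq.1.injective h)
          (fun b hb => ⟨q b, ?_, hq.1 b⟩)
        · simp only [moved, mem_filter, mem_univ, true_and] at ha ⊢
          exact ⟨fun h => ha.1 (hq.1.injective h), ha.2⟩
        · simp only [moved, mem_filter, mem_univ, true_and] at hb ⊢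
          exact ⟨fun h => hb.1 (hq.1.injective h), (hq.1 b).symm ▸ hb.2⟩
      have hne2 : (((moved q).filter fun a => Far Gᶜ x a) ∩
          (moved q).filter fun a => Far Gᶜ y (q a)).Nonempty := by
        rw [← card_pos]
        have h1 := card_union_add_card_inter ((moved q).filter fun a => Far Gᶜ x a)
          ((moved q).filter fun a => Far Gᶜ y (q a))
        have h2 := card_le_card (union_subset (filter_subset (fun a => Far Gᶜ x a) (moved q))
          (filter_subset (fun a => Far Gᶜ y (q a)) (moved q)))
        have hR2 : (moved q).card + 2 ≤ R.card := by omega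
        omega
      obtain ⟨a, ha⟩ := hne2
      simp only [mem_inter, mem_filter] at ha
      obtain ⟨⟨haq, hxa⟩, -, hyb⟩ := ha
      have haf : q a ≠ a := (mem_filter.1 haq).2
      set b := q a with hb
      have hba : q b = a := hq.1 a
      have hxb : x ≠ b := fun h => hx.2 (h ▸ (by simp [moved, hba, haf.symm]))
      have hya : y ≠ a := fun h => hy.2 (h ▸ haq)
      let q' : V → V := fun z =>
        if z = x then a else if z = a then x else if z = y then b else if z = b then y else q z
      have e1 : q' x = a := by simp [q']
      have e2 : q' a = x := by simp [q', hxa.1.symm]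
      have e3 : q' y = b := by simp [q', hxy.symm, hya]
      have e4 : q' b = y := by simp [q', hxb.symm, haf, hyb.1.symm]
      have e5 : ∀ z, z ≠ x → z ≠ a → z ≠ y → z ≠ b → q' z = q z := fun z h1 h2 h3 h4 => by
        simp [q', h1, h2, h3, h4]
      have hbR : b ∈ R := by
        refine (hq.2 b ?_).1
        rw [hba]; exact haf.symm
      have hq' : IsPairing q' := by
        refine ⟨fun z => ?_, fun z hz => ?_⟩
        · by_cases h1 : z = x
          · rw [h1, e1, e2]
          by_cases h2 : z = a
          · rw [h2, e2, e1]
          by_cases h3 : z = y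
          · rw [h3, e3, e4]
          by_cases h4 : z = b
          · rw [h4, e4, e3]
          rw [e5 z h1 h2 h3 h4, e5 (q z)]
          · exact hq.1 z
          · exact fun h => h1 (by rw [← hq.1 z, h, hxf])
          · exact fun h => h4 (by rw [← hq.1 z, h])
          · exact fun h => h3 (by rw [← hq.1 z, h, hyf])
          · exact fun h => h2 (by rw [← hq.1 z, h, hba])
        · by_cases h1 : z = x
          · rw [h1, e1]; exact ⟨hx.1, hxa⟩
          by_cases h2 : z = a
          · rw [h2, e2]; exact ⟨hqR haq, hxa.symm⟩
          by_cases h3 : z = y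
          · rw [h3, e3]; exact ⟨hy.1, hyb⟩
          by_cases h4 : z = b
          · rw [h4, e4]; exact ⟨hbR, hyb.symm⟩
          rw [e5 z h1 h2 h3 h4] at hz ⊢
          exact hq.2 z hz
      have hss : moved q ⊂ moved q' := by
        refine (Finset.ssubset_iff_of_subset ?_).2 ⟨x, ?_, hx.2⟩
        · intro z hz
          simp only [moved, mem_filter, mem_univ, true_and] at hz ⊢
          by_cases h2 : z = a
          · rw [h2, e2]; exact hxa.1
          by_cases h4 : z = b
          · rw [h4, e4]; exact hyb.1
          rw [e5 z (fun h => hz (h ▸ hxf)) h2 (fun h => hz (h ▸ hyf)) h4]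
          exact hz
        · simp only [moved, mem_filter, mem_univ, true_and, e1]
          exact hxa.1.symm
      exact absurd (hqmax q' hq') (not_le.2 (card_lt_card hss))
  have hcard : (reps p).card = (reps q).card := by
    rw [hqall] at hrq; omega
  refine ⟨(reps q).card, ?_, ?_⟩
  · let col : V → reps p := fun z =>
      if h : z ∈ reps p then ⟨z, h⟩ else ⟨p z, by
        simp only [reps, mem_filter, mem_univ, true_and, not_le, hp.1 z] at h ⊢
        exact h.le⟩
    have hcol : ∀ z, (col z : V) = z ∨ (col z : V) = p z := fun z => by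
      by_cases h : z ∈ reps p <;> simp [col, h]
    have C : G.Coloring (reps p) := Coloring.mk col fun {u v} huv heq => by
      have huv' : u ≠ v := huv.ne
      have : (col u : V) = col v := congrArg _ heq
      have hno : ∀ a, p a ≠ a → ¬ G.Adj a (p a) := fun a ha h => (hp.2 a ha).2 h
      rcases hcol u with h1 | h1 <;> rcases hcol v with h2 | h2 <;> rw [h1, h2] at this
      · exact huv' this
      · exact hno v (fun h => huv' (this.trans h)) (this ▸ huv.symm)
      · exact hno u (fun h => huv' (h.symm.trans this)) (this ▸ huv)
      · exact huv' (hp.1.injective this)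
    rw [← hcard]
    simpa using C.colorable
  · let e := (reps q).equivFin.symm
    refine ⟨fun i => {(e i : V), q (e i)}, fun i => ⟨insert_nonempty _ _, ?_⟩, fun i j hij => ?_⟩
    · show (G.induce (({(e i : V), q (e i)} : Finset V) : Set V)).Connected
      rw [Finset.coe_pair]
      by_cases h : q (e i : V) = e i
      · rw [h, Set.pair_eq_singleton]
        haveI : Nonempty ({(e i : V)} : Set V) := ⟨⟨_, rfl⟩⟩
        exact ⟨fun u v => (Subsingleton.elim u v) ▸ Reachable.refl _⟩
      · have hf := (hq.2 _ h).2
        have hadj : G.Adj (e i : V) (q (e i)) := by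
          by_contra hno
          exact hf.2.1 ⟨Ne.symm h, hno⟩
        exact induce_pair_connected_of_adj hadj
    · set a : V := ((e i : reps q) : V)
      set b : V := ((e j : reps q) : V)
      have hab : a ≠ b := fun h => hij (e.injective (Subtype.ext h))
      have ha : Fintype.equivFin V a ≤ Fintype.equivFin V (q a) := (mem_filter.1 (e i).2).2
      have hb : Fintype.equivFin V b ≤ Fintype.equivFin V (q b) := (mem_filter.1 (e j).2).2
      have hqab : q a ≠ b := by
        intro h
        rw [← h, hq.1 a] at hb
        exact hab ((Fintype.equivFin V).injective (le_antisymm ha hb) |>.trans h)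
      have haqb : a ≠ q b := fun h => hqab (by rw [h, hq.1 b])
      have hqq : q a ≠ q b := fun h => hab (hq.1.injective h)
      refine ⟨?_, ?_⟩
      · rw [Finset.disjoint_left]
        intro z hz hz'
        simp only [mem_insert, mem_singleton] at hz hz'
        rcases hz with rfl | rfl <;> rcases hz' with h | h
        · exact hab h
        · exact haqb h
        · exact hqab h
        · exact hqq h
      · by_contra hno
        push Not at hno
        have hH' : ∀ u v, u ≠ v → ¬ G.Adj u v → Gᶜ.Adj u v := fun u v h1 h2 => ⟨h1, h2⟩
        have h1 := hH' a b hab (hno a (mem_insert_self _ _) b (mem_insert_self _ _))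
        have h2 := hH' (q a) b hqab
          (hno (q a) (mem_insert_of_mem (mem_singleton_self _)) b (mem_insert_self _ _))
        have h3 := hH' a (q b) haqb
          (hno a (mem_insert_self _ _) (q b) (mem_insert_of_mem (mem_singleton_self _)))
        by_cases hqa : q a = a
        · by_cases hqb : q b = b
          · refine hindep a b ?_ ?_ h1
            · rw [← hqall]; simp [moved, hqa]
            · rw [← hqall]; simp [moved, hqb]
          · exact ((hq.2 b hqb).2).2.2 a ⟨h1.symm, h3.symm⟩
        · exact ((hq.2 a hqa).2).2.2 b ⟨h1, h2⟩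

end Vale.Agent.P060
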